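import Vale.Agent.P352.BW.MH
import Vale.Agent.P352.BW.E
import Vale.Agent.P352.BW.H728.Grp
import Vale.Agent.P352.HM.Geo584

/-!
# P352 BW: unitary groups that act geometrically differentiate the modular unitaries
-/

set_option linter.all false

noncomputable section

open MeasureTheory Filter Topology
open scoped ComplexConjugate InnerProductSpace BoundedContinuousFunction

namespace Vale.Agent.P352.BW

open Vale.Agent.P132 (ModData expB)
open UniformSpace (Completion)
open GF H246 H496 H755 H15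

variable {D : Type*} [NormedAddCommGroup D] [InnerProductSpace ℂ D]
  {Q : Theory D} {A : (V → V) → D → D} {𝒜 : Set V → VonNeumannAlgebra (Completion D)}
  {G : V → D → D} {S : V → ℝ → Completion D →L[ℂ] Completion D}

namespace Grp

theorem mul_neg (h : Grp Q 𝒜 G S) {a : V} (ha : IsNull a) (c : ℝ) : S a c * S a (-c) = 1 := by
  rw [← h.add a c (-c) ha, add_neg_cancel, h.zero a ha]

theorem neg_mul (h : Grp Q 𝒜 G S) {a : V} (ha : IsNull a) (c : ℝ) : S a (-c) * S a c = 1 := by
  rw [← h.add a (-c) c ha, neg_add_cancel, h.zero a ha]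

theorem uni (h : Grp Q 𝒜 G S) {a : V} (ha : IsNull a) : KB.Uni (S a) :=
  { zero := h.zero a ha
    inn := fun c z w => h.inn a c z w ha
    cont := fun z => h.cont a z ha }

theorem iso (h : Grp Q 𝒜 G S) {a : V} (ha : IsNull a) (c : ℝ) :
    ∃ W : Completion D ≃ₗᵢ[ℂ] Completion D, ∀ z, W z = S a c z := by
  have hs : Function.Surjective
      (LinearMap.isometryOfInner (S a c : Completion D →ₗ[ℂ] Completion D)
        (fun x y => h.inn a c x y ha)) := fun z => ⟨S a (-c) z, by
    have := congrArg (fun T : Completion D →L[ℂ] Completion D => T z) (h.mul_neg ha c)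
    exact this⟩
  exact ⟨LinearIsometryEquiv.ofSurjective _ hs, fun z => rfl⟩

/-- the modular unitaries of the regions `Rg a b c` and of the wedge `Wdg a b 0` -/
theorem nat (h : Grp Q 𝒜 G S) {a b : V} (ha : IsNull a) (hb : IsNull b) (hab : GF.mdot a b = 1)
    {c : ℝ} (hc : 0 ≤ c) (E : ModData (𝒜 (Wdg a b 0)) (om Q))
    (E' : ModData (𝒜 (HM.Rg a b c)) (om Q)) (t : ℝ) (z : Completion D) :
    S a c (E.U t z) = E'.U t (S a c z) := by
  obtain ⟨W, hW⟩ := h.iso ha c
  have e0 : HM.Rg a b 0 = Wdg a b 0 := HM.H584.Rg_zero a b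
  have hg : ∀ X, X ∈ 𝒜 (Wdg a b 0) ↔ S a c * X * S a (-c) ∈ 𝒜 (HM.Rg a b c) := fun X => by
    have := h.geo a b 0 c X ha hb hab le_rfl hc
    rwa [e0, sub_zero, zero_sub] at this
  have h1 := eblock (𝒜 (Wdg a b 0)) (𝒜 (HM.Rg a b c)) (om Q) E E' W
    (by rw [hW]; exact h.vac a c ha)
    (fun X hX => ⟨S a c * X * S a (-c), (hg X).1 hX, fun z => by
      rw [hW, hW]
      have := congrArg (fun T : Completion D →L[ℂ] Completion D => T z) (h.neg_mul ha c)
      show S a c (X (S a (-c) (S a c z))) = S a c (X z)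
      exact congrArg (fun w => S a c (X w)) this⟩)
    (fun Y hY => ⟨S a (-c) * Y * S a c, by
      rw [hg]
      have e : S a c * (S a (-c) * Y * S a c) * S a (-c) = Y := by
        calc S a c * (S a (-c) * Y * S a c) * S a (-c) =
            (S a c * S a (-c)) * Y * (S a c * S a (-c)) := by simp only [mul_assoc]
          _ = Y := by rw [h.mul_neg ha, one_mul, mul_one]
      rw [e]
      exact hY, fun z => by
      rw [hW, hW]
      have := congrArg (fun T : Completion D →L[ℂ] Completion D => T (Y (S a c z)))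
        (h.mul_neg ha c)
      exact this.symm⟩) t z
  rwa [hW, hW] at h1

/-- the modular unitaries of the regions `Rg a b c` -/
theorem mod (h : Grp Q 𝒜 G S) (hU : UStmt Q A)
    (bw : ∀ a b t L (E : ModData (𝒜 (Wdg a b 0)) (om Q)) z, IsNull a → IsNull b →
      GF.mdot a b = 1 → IsLor L →
      (∀ x, sim 1 L 0 x = x + ((Real.exp (-(2 * Real.pi * t)) - 1) * GF.mdot b x) • a +
        ((Real.exp (2 * Real.pi * t) - 1) * GF.mdot a x) • b) → E.U t z = Ue Q 1 L 0 z)
    {a b : V} (ha : IsNull a) (hb : IsNull b) (hab : GF.mdot a b = 1)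
    {c : ℝ} (hc : 0 ≤ c) (E : ModData (𝒜 (Wdg a b 0)) (om Q))
    (E' : ModData (𝒜 (HM.Rg a b c)) (om Q)) (t : ℝ) (z : Completion D) :
    E'.U t z = S a (c * (1 - Real.exp (-(2 * Real.pi * t)))) (E.U t z) := by
  have hL := MB.isLor_b ha hb hab t
  have hbw : ∀ z, E.U t z = Ue Q 1 (bst a b (Real.exp (-(2 * Real.pi * t)) - 1)
      (Real.exp (2 * Real.pi * t) - 1)) 0 z := fun z =>
    bw a b t _ E z ha hb hab hL (fun x => sim_bst a b _ _ x)
  have hsim : sim 1 (bst a b (Real.exp (-(2 * Real.pi * t)) - 1)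
      (Real.exp (2 * Real.pi * t) - 1)) 0 a = Real.exp (-(2 * Real.pi * t)) • a := by
    rw [sim_bst, md_comm b a, hab, ha.1]
    module
  have e1 : S a c (S a (-c) z) = z :=
    congrArg (fun T : Completion D →L[ℂ] Completion D => T z) (h.mul_neg ha c)
  have h1 := h.nat ha hb hab hc E E' t (S a (-c) z)
  rw [e1] at h1
  rw [← h1, hbw, h.cov 1 _ _ a a (-c) z one_pos (Real.exp_pos _) hL ha ha hsim, ← hbw]
  have e2 : S a c (S a (Real.exp (-(2 * Real.pi * t)) / 1 * -c) (E.U t z)) =
      (S a c * S a (Real.exp (-(2 * Real.pi * t)) / 1 * -c)) (E.U t z) := rfl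
  rw [e2, ← h.add a _ _ ha]
  congr 2
  ring

/-- **The modular Hamiltonians** from unitary groups that act geometrically -/
theorem der_mod (h : Grp Q 𝒜 G S) (hU : UStmt Q A) (hR : Rep Q A)
    (bw : ∀ a b t L (E : ModData (𝒜 (Wdg a b 0)) (om Q)) z, IsNull a → IsNull b →
      GF.mdot a b = 1 → IsLor L →
      (∀ x, sim 1 L 0 x = x + ((Real.exp (-(2 * Real.pi * t)) - 1) * GF.mdot b x) • a +
        ((Real.exp (2 * Real.pi * t) - 1) * GF.mdot a x) • b) → E.U t z = Ue Q 1 L 0 z)
    {a b : V} (ha : IsNull a) (hb : IsNull b) (hab : GF.mdot a b = 1)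
    {c : ℝ} (hc : 0 ≤ c) (E : ModData (𝒜 (Wdg a b 0)) (om Q))
    (E' : ModData (𝒜 (HM.Rg a b c)) (om Q)) (v : D) :
    HasDerivAt (fun t : ℝ => E'.U t (v : Completion D))
      ((Complex.I • (A (fun z => (2 * Real.pi) • (GF.mdot a z • b - GF.mdot b z • a)) v +
        ((2 * Real.pi * c : ℝ) : ℂ) • G a v) : D) : Completion D) 0 := by
  have hSu : KB.Uni (S a) := h.uni ha
  have hEU : ∀ t : ℝ, E.U t (v : Completion D) =
      (Q.U 1 (bst a b (Real.exp (-(2 * Real.pi * t)) - 1)
        (Real.exp (2 * Real.pi * t) - 1)) 0 v : D) := by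
    intro t
    rw [bw a b t _ E v ha hb hab (MB.isLor_b ha hb hab t) (fun x => sim_bst a b _ _ x),
      hU.coe 1 _ 0 v one_pos (MB.isLor_b ha hb hab t)]
  have hψ : HasDerivAt (fun t : ℝ => E.U t (v : Completion D))
      ((Complex.I • A (fun z => (2 * Real.pi) • (GF.mdot a z • b - GF.mdot b z • a)) v : D) :
        Completion D) 0 := by
    have h := JB.coe_der (MB.boost_der hR ha hb hab v)
    exact h.congr_of_eventuallyEq (Eventually.of_forall fun t => hEU t)
  have hτ : HasDerivAt (fun t : ℝ => c * (1 - Real.exp (-(2 * Real.pi * t)))) (2 * Real.pi * c)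
      0 := by
    have h1 : HasDerivAt (fun e : ℝ => Real.exp (-(2 * Real.pi * e))) (-(2 * Real.pi)) 0 := by
      have := (((hasDerivAt_id (0 : ℝ)).const_mul (2 * Real.pi)).neg).exp
      simpa using this
    refine ((h1.const_sub 1).const_mul c).congr_deriv ?_
    ring
  have hS : HasDerivAt (fun t : ℝ => S a (c * (1 - Real.exp (-(2 * Real.pi * t))))
      (v : Completion D)) ((2 * Real.pi * c : ℝ) • ((Complex.I • G a v : D) : Completion D)) 0 := by
    have h1 : HasDerivAt (fun c : ℝ => S a c (v : Completion D))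
        ((Complex.I • G a v : D) : Completion D)
        ((fun t : ℝ => c * (1 - Real.exp (-(2 * Real.pi * t)))) 0) := by
      show HasDerivAt _ _ (c * (1 - Real.exp (-(2 * Real.pi * 0))))
      rw [mul_zero, neg_zero, Real.exp_zero, sub_self, mul_zero]
      exact h.der a v ha
    exact h1.scomp (0 : ℝ) hτ
  have h0 : S a (c * (1 - Real.exp (-(2 * Real.pi * 0)))) = 1 := by
    rw [mul_zero, neg_zero, Real.exp_zero, sub_self, mul_zero, hSu.zero]
  have h1 := JB.prod_der (fun t : ℝ => S a (c * (1 - Real.exp (-(2 * Real.pi * t)))))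
    (fun t z => KB.norm_le hSu _ z)
    (fun z => (hSu.cont z).comp (by fun_prop)) h0
    (w := (2 * Real.pi * c : ℝ) • ((Complex.I • G a v : D) : Completion D)) hψ (by
      simp only [JB.U_zero E]
      exact hS)
  have e1 : (fun t : ℝ => E'.U t (v : Completion D)) = fun t : ℝ =>
      S a (c * (1 - Real.exp (-(2 * Real.pi * t)))) (E.U t (v : Completion D)) := by
    funext t
    exact h.mod hU bw ha hb hab hc E E' t v
  rw [e1]
  refine h1.congr_deriv ?_
  have e2 : Complex.I • (A (fun z => (2 * Real.pi) • (GF.mdot a z • b - GF.mdot b z • a)) v +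
      ((2 * Real.pi * c : ℝ) : ℂ) • G a v) = (2 * Real.pi * c : ℝ) • (Complex.I • G a v) +
      Complex.I • A (fun z => (2 * Real.pi) • (GF.mdot a z • b - GF.mdot b z • a)) v := by
    rw [smul_add, add_comm, smul_comm, Complex.coe_smul]
  rw [e2, UniformSpace.Completion.coe_add]
  congr 1
  exact (UniformSpace.Completion.coe_smul _ _).symm

end Grp

end Vale.Agent.P352.BW

end
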