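import Vale.Agent.P352.BW.Fe
import Vale.Agent.P352.BW.H728.Grp
import Vale.Agent.P352.BW.H728.Geo

/-!
# P352 BW: the null generators generate unitary groups that act geometrically
-/

set_option linter.all false

noncomputable section

open MeasureTheory Filter Topology

namespace Vale.Agent.P352.BW

open GF H246 H496 H755 H15
open UniformSpace (Completion)
open Vale.Agent.P132 (ModData)

variable {D : Type*} [NormedAddCommGroup D] [InnerProductSpace ℂ D]
variable {Q : Theory D} {T : Ix → Ix → Fld D} {J : Ix → Fld D} {A : (V → V) → D → D}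
  {𝒜 : Set V → VonNeumannAlgebra (Completion D)}

namespace H728

/-- **The unitary groups of the null generators** -/
theorem grp_of (N : LNet Q A 𝒜) {S : V → V → ℝ → Completion D →L[ℂ] Completion D} {G : V → D → D}
    (hN : ∀ a b, IsNull a → IsNull b → GF.mdot a b = 1 → Nd Q 𝒜 a b (S a b) ∧
      Nonempty (ModData (𝒜 (Wdg a b 0)) (om Q)) ∧
      ∀ c : ℝ, 0 < c → Nonempty (ModData (𝒜 (HM.Rg a b c)) (om Q)))
    (hG : ∀ a b (v : D), IsNull a → IsNull b → GF.mdot a b = 1 →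
      HasDerivAt (fun c : ℝ => S a b c (v : Completion D))
        ((Complex.I • G a v : D) : Completion D) 0) : ∃ S, Grp Q 𝒜 G S := by
  have hV : VNet Q A 𝒜 := N.vnet
  have hU : UStmt Q A := ublock N.toRep
  have hG3 : G3Stmt Q S := g3block S hV hN
  have hG2 : G2Stmt Q A 𝒜 S := g2 eblock hU (fun a b ha hb hab => (hN a b ha hb hab).2) S
  classical
  obtain ⟨β, hβ⟩ : ∃ β : V → V, ∀ a, IsNull a → IsNull (β a) ∧ GF.mdot a (β a) = 1 := by
    refine ⟨fun a => if ha : IsNull a then Classical.choose (H755.exists_dual ha) else 0,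
      fun a ha => ?_⟩
    simp only [dif_pos ha]
    exact Classical.choose_spec (H755.exists_dual ha)
  have hS : ∀ a b, IsNull a → IsNull b → GF.mdot a b = 1 → ∀ c, S a (β a) c = S a b c :=
    fun a b ha hb hab c => hG3.indep a (β a) b c ha (hβ a ha).1 hb (hβ a ha).2 hab
  have key : ∀ a, IsNull a → S a (β a) 0 = 1 ∧
      (∀ c c', S a (β a) (c + c') = S a (β a) c * S a (β a) c') ∧
      (∀ z, Continuous fun c => S a (β a) c z) ∧
      (∀ c z w, inner ℂ (S a (β a) c z) (S a (β a) c w) = inner ℂ z w) ∧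
      ∀ c, S a (β a) c (om Q) = om Q := by
    intro a ha
    obtain ⟨hNd, hM, hR⟩ := hN a (β a) ha (hβ a ha).1 (hβ a ha).2
    obtain ⟨-, -, i3, -⟩ := lo_S hNd hM (hR 1 one_pos)
    obtain ⟨E⟩ := hM
    obtain ⟨E'⟩ := hR 1 one_pos
    have hs := hNd.hs 1 E E' one_pos
    refine ⟨by simpa using hs.zero, fun c c' => by simpa using hs.add c c',
      fun z => by simpa using hs.cont z, i3, fun c => by simpa using hs.xi c⟩
  refine ⟨fun a c => S a (β a) c, ⟨fun a v ha => ?_, fun a ha => (key a ha).1,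
    fun a c c' ha => (key a ha).2.1 c c', fun a c z w ha => (key a ha).2.2.2.1 c z w,
    fun a z ha => (key a ha).2.2.1 z, fun a c ha => (key a ha).2.2.2.2 c,
    fun s L r a b c z hs hr hL ha hb hab => ?_,
    fun a b c c' X ha hb hab hc hc' => ?_⟩⟩
  · exact hG a (β a) v ha (hβ a ha).1 (hβ a ha).2
  · -- covariance
    obtain ⟨hb0, hab0⟩ := hβ a ha
    have hn : IsNull (r • sim 1 L 0 (β a)) := by
      have h1 := isNull_lor hL hb0
      exact ⟨by rw [md_smul, md_smul_l, h1.1]; simp, mul_pos hr h1.2⟩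
    have hd : GF.mdot b (r • sim 1 L 0 (β a)) = 1 := by
      have h1 : GF.mdot (sim 1 L 0 a) (sim 1 L 0 (β a)) = 1 := by
        rw [mdot_sim hL, hab0]
      rw [hab, md_smul_l] at h1
      rw [md_smul]
      exact h1
    have h := hG2 hV (fun a b ha hb hab => (hN a b ha hb hab).1) s L r a (β a) b
      (r • sim 1 L 0 (β a)) c z hs hr hL ha hb0 hb hn hab0 hd hab rfl
    rw [h, hS b (r • sim 1 L 0 (β a)) hb hn hd]
  · obtain ⟨hNd, hM, hR⟩ := hN a b ha hb hab
    obtain ⟨k1, k2, -⟩ := key a ha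
    have e : ∀ c, S a (β a) c = S a b c := hS a b ha hb hab
    simp only [e] at k1 k2 ⊢
    have g : ∀ {c : ℝ}, 0 ≤ c → ∀ X, X ∈ 𝒜 (Wdg a b 0) ↔
        S a b c * X * S a b (-c) ∈ 𝒜 (HM.Rg a b c) := fun {c} hc X =>
      geo N.mono ha hb hab hNd hM hc (fun h => hR c h) k1 X
    have m : ∀ c, S a b c * S a b (-c) = 1 := fun c => by rw [← k2, add_neg_cancel, k1]
    have h1 := g hc (S a b (-c) * X * S a b c)
    have h2 := g hc' (S a b (-c) * X * S a b c)
    have e1 : S a b c * (S a b (-c) * X * S a b c) * S a b (-c) = X := by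
      calc S a b c * (S a b (-c) * X * S a b c) * S a b (-c) =
          (S a b c * S a b (-c)) * X * (S a b c * S a b (-c)) := by simp only [mul_assoc]
        _ = X := by rw [m, one_mul, mul_one]
    have e2 : S a b c' * (S a b (-c) * X * S a b c) * S a b (-c') =
        S a b (c' - c) * X * S a b (c - c') := by
      rw [sub_eq_add_neg, sub_eq_add_neg, k2, k2]
      simp only [mul_assoc]
    rw [e1] at h1
    rw [e2] at h2
    exact h1.symm.trans h2

end H728

/-- the null generators, their unitary groups and the modular Hamiltonians -/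
theorem null_u (N : LNet Q A 𝒜) (hT : Q.IsStress T) (hJ : IsVirial Q T J) :
    ∃ G : V → D → D, NG.NullGen Q T J A G ∧ MHam Q A 𝒜 G ∧ ∃ S, Grp Q 𝒜 G S := by
  obtain ⟨S, G, hN, hG, h, hm⟩ := null_l N hT hJ
  exact ⟨G, h, hm, H728.grp_of N hN hG⟩

/-- **The main theorem** for local nets with the property of Bisognano and Wichmann -/
theorem main_lu (hT : Q.IsStress T) (hJ : IsVirial Q T J) (hP : ND.PCh Q T A) (N : LNet Q A 𝒜) :
    N86.ConfInv Q T ∧ ∃ G : V → D → D, MHam Q A 𝒜 G ∧ (∃ S, Grp Q 𝒜 G S) ∧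
      (∃ C : D → D, NG.Neutral Q T J A C ∧ NG.ConfC Q A G C) ∧ (∀ m n, NG.LocF Q G (T m n)) ∧
      (∀ m, NG.LocF Q G (J m)) ∧ (NG.Cyc Q T J → ConfGen Q A G) := by
  obtain ⟨G, hn, hm, hu⟩ := null_u N hT hJ
  obtain ⟨h1, h2, h3⟩ := (NG.nullGen_iff hT hJ hP).1 hn
  exact ⟨NG.confL hT hJ hn hP, G, hm, hu, h1, h2, h3, fun hc => NG.confGen_of hT hJ hn hP hc⟩

/-- **The main theorem** for local nets -/
theorem main_u (hT : Q.IsStress T) (hJ : IsVirial Q T J) (hP : ND.PCh Q T A)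
    (hG : H846.TGen Q) (N : LNt Q A 𝒜) :
    N86.ConfInv Q T ∧ ∃ G : V → D → D, MHam Q A 𝒜 G ∧ (∃ S, Grp Q 𝒜 G S) ∧
      (∃ C : D → D, NG.Neutral Q T J A C ∧ NG.ConfC Q A G C) ∧ (∀ m n, NG.LocF Q G (T m n)) ∧
      (∀ m, NG.LocF Q G (J m)) ∧ (NG.Cyc Q T J → ConfGen Q A G) :=
  main_lu hT hJ hP (Vale.Agent.P352.BW.T.net hG N.lnet0)

end Vale.Agent.P352.BW

end
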