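import Vale.Agent.P352.BW.Spec
import Vale.Agent.P352.BW.K
import Vale.Agent.P352.BW.C2
import Vale.Agent.P352.BW.Mon

/-!
# P352: limits of modular groups (helper728)

`M n ⊆ M`, the modular unitaries of `M n` converge strongly to `V s`, and `V s` commutes with the
modular objects of `M`: then `V s` are the modular unitaries of `M`.
-/

set_option linter.all false

noncomputable section

open MeasureTheory Filter Topology
open scoped ComplexConjugate InnerProductSpace BoundedContinuousFunction FourierTransform SchwartzMap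

namespace Vale.Agent.P352.BW.Cv

open Vale.Agent.P132 (ModData expB reflB e3_intOp)

variable {H : Type*} [NormedAddCommGroup H] [InnerProductSpace ℂ H] [CompleteSpace H]
variable {M : VonNeumannAlgebra H} {ξ : H}

/-- test functions -/
structure TF where
  /-- the function -/
  f : ℝ → ℂ
  s : ContDiff ℝ (⊤ : ℕ∞) f
  c : HasCompactSupport f

/-- as a bounded continuous function -/
def TF.B (k : TF) : ℝ →ᵇ ℂ :=
  BoundedContinuousFunction.ofNormedAddCommGroup k.f k.s.continuous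
    (k.s.continuous.bounded_above_of_compact_support k.c).choose
    (k.s.continuous.bounded_above_of_compact_support k.c).choose_spec

@[simp] lemma TF.B_apply (k : TF) (h : ℝ) : k.B h = k.f h := rfl

/-- multiplication by a smooth function -/
def TF.m (k : TF) (g : ℝ → ℂ) (hg : ContDiff ℝ (⊤ : ℕ∞) g) : TF :=
  ⟨fun h => g h * k.f h, hg.mul k.s, k.c.mul_left⟩

@[simp] lemma TF.m_f (k : TF) (g : ℝ → ℂ) (hg : ContDiff ℝ (⊤ : ℕ∞) g) (h : ℝ) :
    (k.m g hg).f h = g h * k.f h := rfl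

/-- scaling -/
def TF.sc (k : TF) (ε : ℝ) (hε : ε ≠ 0) : TF :=
  ⟨fun h => k.f (ε * h), k.s.comp (contDiff_const.mul contDiff_id),
    k.c.comp_homeomorph (Homeomorph.mulLeft₀ ε hε)⟩

/-- reflection -/
def TF.r (k : TF) : TF :=
  ⟨fun h => conj (k.f (-h)), Complex.conjCLE.contDiff.comp (k.s.comp contDiff_neg), by
    have h1 : HasCompactSupport fun h : ℝ => k.f (-h) := k.c.comp_homeomorph (Homeomorph.neg ℝ)
    exact h1.comp_left (g := conj) (by simp)⟩

lemma TF.r_B (k : TF) : k.r.B = reflB k.B := by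
  ext h
  rfl

/-- Fourier data -/
lemma TF.four (k : TF) : ∃ G : ℝ → ℂ, Continuous G ∧ Integrable G ∧
    ∀ h, k.f h = ∫ w, G w * Complex.exp (Complex.I * ((2 * Real.pi * w * h : ℝ) : ℂ)) := by
  set g : 𝓢(ℝ, ℂ) := k.c.toSchwartzMap k.s with hg
  have hgf : ∀ h, g h = k.f h := fun h => rfl
  set G : 𝓢(ℝ, ℂ) := 𝓕 g with hG
  refine ⟨fun w => G w, G.continuous, G.integrable, fun h => ?_⟩
  have h1 : (𝓕⁻ G : 𝓢(ℝ, ℂ)) = g := FourierTransform.fourierInv_fourier_eq g
  have h2 : (𝓕⁻ G : 𝓢(ℝ, ℂ)) h = 𝓕⁻ (G : ℝ → ℂ) h := congrFun (SchwartzMap.fourierInv_coe G) h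
  rw [h1, hgf, Real.fourierInv_eq'] at h2
  rw [h2]
  congr 1
  ext w
  rw [smul_eq_mul, mul_comm]
  congr 2
  simp only [RCLike.inner_apply, conj_trivial]
  push_cast
  ring

/-- the functional calculus as an integral -/
lemma th_int (D : ModData M ξ) (f : ℝ →ᵇ ℂ) {G : ℝ → ℂ} (hGc : Continuous G) (hGi : Integrable G)
    (c : ℝ) (hinv : ∀ h, f h = ∫ w, G w * Complex.exp (Complex.I * ((c * w * h : ℝ) : ℂ))) (v : H) :
    D.Th f v = ∫ w, G w • D.U (c * w) v := by
  have hUc : ∀ η, Continuous fun w => D.U (c * w) η := fun η =>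
    D.continuous_U_comp continuous_const (by fun_prop)
  obtain ⟨A, hA1, hA2⟩ := e3_intOp G hGi hGc (fun w => D.U (c * w)) hUc 1
    (fun w => ContinuousLinearMap.opNorm_le_bound _ zero_le_one fun ζ => by
      rw [D.norm_U, one_mul])
  have hquad : ∀ v, ⟪v, A v⟫_ℂ = ⟪v, D.Th f v⟫_ℂ := by
    intro v
    obtain ⟨μ, hμf, hμ⟩ := D.spec v
    rw [hA2, hμ f, ← integral_inner (hA1 v)]
    have h1 : ∀ w : ℝ, ⟪v, G w • D.U (c * w) v⟫_ℂ =
        ∫ h, G w * Complex.exp (Complex.I * ((c * w * h : ℝ) : ℂ)) ∂μ := by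
      intro w
      rw [inner_smul_right, ModData.U, hμ, ← integral_const_mul]
      rfl
    simp only [h1]
    rw [integral_integral_swap]
    · congr 1
      ext h
      exact (hinv h).symm
    · refine Integrable.mono' (hGi.norm.comp_fst μ) ?_ (Eventually.of_forall fun p => ?_)
      · have : Continuous (Function.uncurry fun (w h : ℝ) =>
            G w * Complex.exp (Complex.I * ((c * w * h : ℝ) : ℂ))) := by
          simp only [Function.uncurry_def]
          exact (hGc.comp continuous_fst).mul (by fun_prop)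
        exact this.aestronglyMeasurable
      · rw [Function.uncurry_def, norm_mul, mul_comm Complex.I, Complex.norm_exp_ofReal_mul_I,
          mul_one]
  have hAT : A = D.Th f := by
    have h1 : (A : H →ₗ[ℂ] H) = (D.Th f : H →ₗ[ℂ] H) := by
      rw [← ext_inner_map]
      intro x
      have := hquad x
      change ⟪A x, x⟫_ℂ = ⟪D.Th f x, x⟫_ℂ
      rw [← inner_conj_symm, this, inner_conj_symm]
    exact ContinuousLinearMap.coe_injective h1
  rw [← hAT, hA2]

/-- the situation -/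
structure Sit (D : ModData M ξ) (N : ℕ → VonNeumannAlgebra H) (E : ∀ n, ModData (N n) ξ)
    (V : ℝ → H → H) : Prop where
  le : ∀ n, ∀ x ∈ N n, x ∈ M
  lim : ∀ s v, Tendsto (fun n => (E n).U s v) atTop (𝓝 (V s v))
  vc : ∀ v, Continuous fun s => V s v
  vth : ∀ F s z, V s (D.Th F z) = D.Th F (V s z)
  vj : ∀ s z, V s (D.J z) = D.J (V s z)

variable {D : ModData M ξ} {N : ℕ → VonNeumannAlgebra H} {E : ∀ n, ModData (N n) ξ}
  {V : ℝ → H → H}

lemma Sit.nV (h : Sit D N E V) (s : ℝ) (v : H) : ‖V s v‖ = ‖v‖ := by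
  refine tendsto_nhds_unique (h.lim s v).norm ?_
  simp only [ModData.norm_U]
  exact tendsto_const_nhds

/-- the limit of the functional calculus -/
lemma Sit.conv (h : Sit D N E V) (f : ℝ →ᵇ ℂ) {G : ℝ → ℂ} (hGc : Continuous G)
    (hGi : Integrable G) (c : ℝ)
    (hinv : ∀ x, f x = ∫ w, G w * Complex.exp (Complex.I * ((c * w * x : ℝ) : ℂ))) (v : H) :
    Tendsto (fun n => (E n).Th f v) atTop (𝓝 (∫ w, G w • V (c * w) v)) := by
  have e : (fun n => (E n).Th f v) = fun n => ∫ w, G w • (E n).U (c * w) v := by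
    funext n
    exact th_int (E n) f hGc hGi c hinv v
  rw [e]
  refine tendsto_integral_of_dominated_convergence (fun w => ‖G w‖ * ‖v‖) ?_
    (hGi.norm.mul_const _) ?_ ?_
  · intro n
    exact (hGc.smul ((E n).continuous_U_comp continuous_const (by fun_prop))).aestronglyMeasurable
  · intro n
    refine Eventually.of_forall fun w => ?_
    rw [norm_smul, ModData.norm_U]
  · refine Eventually.of_forall fun w => ?_
    exact (h.lim _ v).const_smul _

/-- the limit -/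
def Af (E : ∀ n, ModData (N n) ξ) (k : TF) (v : H) : H := limUnder atTop fun n => (E n).Th k.B v

lemma Sit.tA (h : Sit D N E V) (k : TF) (v : H) :
    Tendsto (fun n => (E n).Th k.B v) atTop (𝓝 (Af E k v)) := by
  obtain ⟨G, h1, h2, h3⟩ := k.four
  have h4 := h.conv k.B h1 h2 (2 * Real.pi) h3 v
  exact tendsto_nhds_limUnder ⟨_, h4⟩

lemma Sit.A_eq (h : Sit D N E V) (k : TF) {G : ℝ → ℂ} (hGc : Continuous G)
    (hGi : Integrable G) (c : ℝ)
    (hinv : ∀ x, k.f x = ∫ w, G w * Complex.exp (Complex.I * ((c * w * x : ℝ) : ℂ))) (v : H) :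
    Af E k v = ∫ w, G w • V (c * w) v :=
  tendsto_nhds_unique (h.tA k v) (h.conv k.B hGc hGi c hinv v)

lemma Sit.A_le (h : Sit D N E V) (k : TF) {C : ℝ} (hC0 : 0 ≤ C) (hC : ∀ x, ‖k.f x‖ ≤ C) (v : H) :
    ‖Af E k v‖ ≤ C * ‖v‖ := by
  refine le_of_tendsto' (h.tA k v).norm fun n => ?_
  have h1 : ‖(E n).Th k.B‖ ≤ ‖k.B‖ := NonUnitalStarAlgHom.norm_apply_le _ _
  have h2 : ‖k.B‖ ≤ C := (BoundedContinuousFunction.norm_le hC0).2 hC
  exact ((E n).Th k.B).le_of_opNorm_le (h1.trans h2) v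

lemma Sit.A_add (h : Sit D N E V) (k : TF) (v w : H) : Af E k (v + w) = Af E k v + Af E k w := by
  refine tendsto_nhds_unique (h.tA k (v + w)) ?_
  simp only [map_add]
  exact (h.tA k v).add (h.tA k w)

lemma Sit.A_smul (h : Sit D N E V) (k : TF) (c : ℂ) (v : H) : Af E k (c • v) = c • Af E k v := by
  refine tendsto_nhds_unique (h.tA k (c • v)) ?_
  simp only [map_smul]
  exact (h.tA k v).const_smul c

/-- as an operator -/
def Sit.op (h : Sit D N E V) (k : TF) : H →L[ℂ] H :=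
  LinearMap.mkContinuous ⟨⟨Af E k, h.A_add k⟩, h.A_smul k⟩ ‖k.B‖
    (fun v => h.A_le k (norm_nonneg _) (fun x => k.B.norm_coe_le_norm x) v)

lemma Sit.op_apply (h : Sit D N E V) (k : TF) (v : H) : h.op k v = Af E k v := rfl

lemma Sit.A_cont (h : Sit D N E V) (k : TF) : Continuous (Af E k) := (h.op k).continuous

/-- multiplicativity -/
lemma Sit.A_mul (h : Sit D N E V) (k k' : TF) {k'' : TF} (he : ∀ x, k''.f x = k.f x * k'.f x)
    (v : H) : Af E k'' v = Af E k (Af E k' v) := by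
  refine tendsto_nhds_unique (h.tA k'' v) ?_
  have e : ∀ n, (E n).Th k''.B v = (E n).Th k.B ((E n).Th k'.B v) := by
    intro n
    rw [← ModData.gd_Th_mul]
    congr 1
    exact ModData.gd_Th_congr _ fun x => he x
  simp only [e]
  have h1 := h.tA k (Af E k' v)
  have h2 : Tendsto (fun n => (E n).Th k.B ((E n).Th k'.B v - Af E k' v)) atTop (𝓝 0) := by
    refine squeeze_zero_norm (a := fun n => ‖k.B‖ * ‖(E n).Th k'.B v - Af E k' v‖) (fun n => ?_) ?_
    · have h1 : ‖(E n).Th k.B‖ ≤ ‖k.B‖ := NonUnitalStarAlgHom.norm_apply_le _ _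
      exact ((E n).Th k.B).le_of_opNorm_le h1 _
    · have := tendsto_iff_norm_sub_tendsto_zero.1 (h.tA k' v)
      simpa using this.const_mul ‖k.B‖
  have h3 := h2.add h1
  rw [zero_add] at h3
  refine h3.congr fun n => ?_
  rw [map_sub, sub_add_cancel]

/-- adjoints -/
lemma Sit.A_adj (h : Sit D N E V) (k k' : TF) (he : ∀ x, k'.f x = conj (k.f x)) (v w : H) :
    ⟪Af E k v, w⟫_ℂ = ⟪v, Af E k' w⟫_ℂ := by
  refine tendsto_nhds_unique ((h.tA k v).inner tendsto_const_nhds) ?_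
  refine ((tendsto_const_nhds (x := v)).inner (h.tA k' w)).congr fun n => ?_
  have e : (E n).Th k'.B = (E n).Th (star k.B) := ModData.gd_Th_congr _ fun x => he x
  rw [ModData.gd_inner_Th, e]

/-- the group -/
lemma Sit.A_exp (h : Sit D N E V) (k k' : TF) (s : ℝ) (he : ∀ x, k'.f x = expB s x * k.f x)
    (v : H) : Af E k' v = V s (Af E k v) := by
  refine tendsto_nhds_unique (h.tA k' v) ?_
  have e : ∀ n, (E n).Th k'.B v = (E n).U s ((E n).Th k.B v) := by
    intro n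
    rw [ModData.U, ← ModData.gd_Th_mul]
    congr 1
    exact ModData.gd_Th_congr _ fun x => he x
  simp only [e]
  have h1 := h.lim s (Af E k v)
  have h2 : Tendsto (fun n => (E n).U s ((E n).Th k.B v - Af E k v)) atTop (𝓝 0) := by
    refine squeeze_zero_norm (a := fun n => ‖(E n).Th k.B v - Af E k v‖) (fun n => ?_) ?_
    · rw [ModData.norm_U]
    · exact tendsto_iff_norm_sub_tendsto_zero.1 (h.tA k v)
  have h3 := h2.add h1
  rw [zero_add] at h3
  refine h3.congr fun n => ?_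
  rw [map_sub, sub_add_cancel]

/-- the limit commutes with the modular objects of `M` -/
lemma Sit.A_Th (h : Sit D N E V) (k : TF) (F : ℝ →ᵇ ℂ) (v : H) :
    Af E k (D.Th F v) = D.Th F (Af E k v) := by
  obtain ⟨G, h1, h2, h3⟩ := k.four
  rw [h.A_eq k h1 h2 (2 * Real.pi) h3, h.A_eq k h1 h2 (2 * Real.pi) h3,
    ← ContinuousLinearMap.integral_comp_comm]
  · congr 1
    ext w
    rw [h.vth, map_smul]
  · refine Integrable.mono' (h2.norm.mul_const ‖v‖) ?_ (Eventually.of_forall fun w => ?_)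
    · exact (h1.smul ((h.vc v).comp (continuous_const.mul continuous_id))).aestronglyMeasurable
    · rw [norm_smul, h.nV]

lemma Sit.A_J (h : Sit D N E V) (k : TF) (v : H) : Af E k.r (D.J v) = D.J (Af E k v) := by
  obtain ⟨G, h1, h2, h3⟩ := k.four
  have hc : Continuous fun w => conj (G w) := Complex.continuous_conj.comp h1
  have hi : Integrable fun w => conj (G w) := by
    refine h2.norm.mono' hc.aestronglyMeasurable (Eventually.of_forall fun w => ?_)
    rw [RCLike.norm_conj]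
  have h4 : ∀ x, k.r.f x = ∫ w, conj (G w) * Complex.exp (Complex.I * ((2 * Real.pi * w * x : ℝ) : ℂ)) := by
    intro x
    show conj (k.f (-x)) = _
    rw [h3, ← integral_conj]
    congr 1
    ext w
    rw [map_mul, ← Complex.exp_conj]
    congr 2
    rw [map_mul, Complex.conj_I, Complex.conj_ofReal]
    push_cast
    ring
  rw [h.A_eq k h1 h2 (2 * Real.pi) h3, h.A_eq k.r hc hi (2 * Real.pi) h4]
  have h5 : D.J (∫ w, G w • V (2 * Real.pi * w) v) = ∫ w, D.J (G w • V (2 * Real.pi * w) v) := by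
    have hi' : Integrable fun w => G w • V (2 * Real.pi * w) v := by
      refine Integrable.mono' (h2.norm.mul_const ‖v‖) ?_ (Eventually.of_forall fun w => ?_)
      · exact (h1.smul ((h.vc v).comp (continuous_const.mul continuous_id))).aestronglyMeasurable
      · rw [norm_smul, h.nV]
    let JR : H →L[ℝ] H :=
      { toFun := fun x => D.J x
        map_add' := fun x y => map_add D.J x y
        map_smul' := fun c x => by
          have : (c : ℝ) • x = (c : ℂ) • x := (Complex.coe_smul c x).symm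
          rw [this, LinearIsometryEquiv.map_smulₛₗ, Complex.conj_ofReal, Complex.coe_smul]
          rfl
        cont := D.J.continuous }
    have := JR.integral_comp_comm hi'
    exact this.symm
  rw [h5]
  congr 1
  ext w
  rw [LinearIsometryEquiv.map_smulₛₗ, h.vj]


/-! ### comparison -/

lemma TF.ext' {k k' : TF} (h : ∀ x, k.f x = k'.f x) : k = k' := by
  obtain ⟨f, s, c⟩ := k
  obtain ⟨f', s', c'⟩ := k'
  obtain rfl : f = f' := funext h
  rfl

/-- `|k|^2` -/
def TF.q (k : TF) : TF :=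
  ⟨fun x => conj (k.f x) * k.f x, (Complex.conjCLE.contDiff.comp k.s).mul k.s, k.c.mul_left⟩

/-- `conj k` -/
def TF.b (k : TF) : TF :=
  ⟨fun x => conj (k.f x), Complex.conjCLE.contDiff.comp k.s, k.c.comp_left (g := conj) (by simp)⟩

lemma Sit.le1 (h : Sit D N E V) (F G : ℝ →ᵇ ℂ) (hFG : ∀ x : ℝ, F x = Real.exp (x / 2) * G x)
    (k k' : TF) (he : ∀ x : ℝ, k'.f x = Real.exp (x / 2) * k.f x) (v : H) :
    ‖D.Th F (Af E k v)‖ ≤ ‖G‖ * ‖Af E k' v‖ := by
  refine le_of_tendsto_of_tendsto' (((D.Th F).continuous.tendsto _).comp (h.tA k v)).norm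
    ((h.tA k' v).norm.const_mul ‖G‖) fun n => ?_
  have hk : HasCompactSupport k.B := k.c
  have hks : ContDiff ℝ (⊤ : ℕ∞) k.B := k.s
  have hK := kblock D (E n) (h.le n) F G k.B hk v hks hFG
  have e : (E n).Th (ez k.B hk (1 / 2)) = (E n).Th k'.B := by
    rw [k_ez_half]
    exact ModData.gd_Th_congr _ fun x => (he x).symm
  rw [e] at hK
  show ‖D.Th F ((E n).Th k.B v)‖ ≤ ‖G‖ * ‖(E n).Th k'.B v‖
  rw [← hK]
  have h1 : ‖D.Th G‖ ≤ ‖G‖ := NonUnitalStarAlgHom.norm_apply_le _ _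
  have h2 := (D.Th G).le_of_opNorm_le h1 (D.J ((E n).J ((E n).Th k'.B v)))
  rwa [LinearIsometryEquiv.norm_map, LinearIsometryEquiv.norm_map] at h2

lemma Sit.le2 (h : Sit D N E V) (κ κ' k k' : TF) (hκ : ∀ x : ℝ, κ'.f x = Real.exp (x / 2) * κ.f x)
    (hk : ∀ x : ℝ, k'.f x = Real.exp (x / 2) * k.f x) (v : H) :
    ‖D.Th κ'.B (Af E k v)‖ ≤ ‖D.Th κ.B (Af E k' v)‖ := by
  obtain ⟨χ, hχs, hχc, hχn, hχ1, -⟩ := ModData.gd_cutoff (tsupport κ.f) κ.c
  have hes : ContDiff ℝ (⊤ : ℕ∞) (fun x : ℝ => ((Real.exp (x / 2) : ℝ) : ℂ)) :=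
    Complex.ofRealCLM.contDiff.comp (Real.contDiff_exp.comp (contDiff_id.div_const 2))
  set X : TF := ⟨χ, hχs, hχc⟩ with hX
  have h1 := h.le1 (X.m _ hes).B χ (fun x => rfl) k k' hk (D.Th κ.B v)
  rw [h.A_Th, h.A_Th, ← ModData.gd_Th_mul] at h1
  have e : D.Th ((X.m _ hes).B * κ.B) = D.Th κ'.B := by
    refine ModData.gd_Th_congr _ fun x => ?_
    show (((Real.exp (x / 2) : ℝ) : ℂ) * χ x) * κ.f x = κ'.f x
    rw [hκ]
    by_cases hx : x ∈ tsupport κ.f
    · rw [hχ1 x hx, mul_one]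
    · rw [image_eq_zero_of_notMem_tsupport hx, mul_zero, mul_zero]
  rw [e] at h1
  refine h1.trans ?_
  have h2 : ‖χ‖ * ‖D.Th κ.B (Af E k' v)‖ ≤ 1 * ‖D.Th κ.B (Af E k' v)‖ :=
    mul_le_mul_of_nonneg_right hχn (norm_nonneg _)
  rwa [one_mul] at h2

lemma Sit.le3 (h : Sit D N E V) (κ κ' k k' : TF) (hκ : ∀ x : ℝ, κ'.f x = Real.exp (x / 2) * κ.f x)
    (hk : ∀ x : ℝ, k'.f x = Real.exp (x / 2) * k.f x) (v : H) :
    ‖D.Th κ.B (Af E k' v)‖ ≤ ‖D.Th κ'.B (Af E k v)‖ := by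
  have key : ∀ (k k' : TF), (∀ x : ℝ, k'.f x = Real.exp (x / 2) * k.f x) →
      ∀ x : ℝ, k.r.f x = Real.exp (x / 2) * k'.r.f x := by
    intro k k' hk x
    show conj (k.f (-x)) = Real.exp (x / 2) * conj (k'.f (-x))
    rw [hk, map_mul, Complex.conj_ofReal, ← mul_assoc, ← Complex.ofReal_mul, ← Real.exp_add]
    have : x / 2 + -x / 2 = 0 := by ring
    rw [this, Real.exp_zero, Complex.ofReal_one, one_mul]
  have h1 := h.le2 κ'.r κ.r k'.r k.r (key κ κ' hκ) (key k k' hk) (D.J v)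
  rw [h.A_J, h.A_J, TF.r_B, TF.r_B, ← D.J_Th, ← D.J_Th, LinearIsometryEquiv.norm_map,
    LinearIsometryEquiv.norm_map] at h1
  exact h1

lemma Sit.quad (h : Sit D N E V) (κ k : TF) (v : H) :
    ⟪D.Th κ.q.B (Af E k.q v), v⟫_ℂ = ((‖D.Th κ.B (Af E k v)‖ ^ 2 : ℝ) : ℂ) := by
  have e1 : D.Th κ.q.B = D.Th (star κ.B * κ.B) := ModData.gd_Th_congr _ fun x => rfl
  have e2 : Af E k.q v = Af E k.b (Af E k v) := h.A_mul k.b k (fun x => rfl) v
  rw [e1, e2, ModData.gd_Th_mul, ModData.gd_inner_Th, star_star, ← h.A_Th,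
    h.A_adj k.b k (fun x => by show k.f x = conj (conj (k.f x)); simp), h.A_Th,
    inner_self_eq_norm_sq_to_K]
  push_cast
  rfl

lemma Sit.rel (h : Sit D N E V) (κ κ' k k' : TF) (hκ : ∀ x : ℝ, κ'.f x = Real.exp (x / 2) * κ.f x)
    (hk : ∀ x : ℝ, k'.f x = Real.exp (x / 2) * k.f x) (v : H) :
    D.Th κ'.q.B (Af E k.q v) = D.Th κ.q.B (Af E k'.q v) := by
  have h1 : ((D.Th κ'.q.B ∘L h.op k.q : H →L[ℂ] H) : H →ₗ[ℂ] H) =
      ((D.Th κ.q.B ∘L h.op k'.q : H →L[ℂ] H) : H →ₗ[ℂ] H) := by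
    rw [← ext_inner_map]
    intro x
    show ⟪D.Th κ'.q.B (Af E k.q x), x⟫_ℂ = ⟪D.Th κ.q.B (Af E k'.q x), x⟫_ℂ
    rw [h.quad, h.quad, le_antisymm (h.le2 κ κ' k k' hκ hk x) (h.le3 κ κ' k k' hκ hk x)]
  exact congrArg (fun T : H →ₗ[ℂ] H => T v) h1

/-- the relation for a function `g` of `h` -/
def Rl (D : ModData M ξ) (E : ∀ n, ModData (N n) ξ) (g : ℝ → ℂ) : Prop :=
  ∀ κ k κ' k' : TF, (∀ x, κ'.f x = g x * κ.q.f x) → (∀ x, k'.f x = g x * k.q.f x) →
    ∀ v, D.Th κ'.B (Af E k.q v) = D.Th κ.q.B (Af E k' v)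

lemma exs (c : ℝ) : ContDiff ℝ (⊤ : ℕ∞) (fun x : ℝ => ((Real.exp (c * x) : ℝ) : ℂ)) :=
  Complex.ofRealCLM.contDiff.comp (Real.contDiff_exp.comp (contDiff_const.mul contDiff_id))

lemma q_m (k : TF) (c : ℝ) (x : ℝ) :
    (k.m _ (exs (c / 2))).q.f x = ((Real.exp (c * x) : ℝ) : ℂ) * k.q.f x := by
  show conj (((Real.exp (c / 2 * x) : ℝ) : ℂ) * k.f x) * (((Real.exp (c / 2 * x) : ℝ) : ℂ) * k.f x) =
    ((Real.exp (c * x) : ℝ) : ℂ) * (conj (k.f x) * k.f x)
  have e : Real.exp (c * x) = Real.exp (c / 2 * x) * Real.exp (c / 2 * x) := by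
    rw [← Real.exp_add]; congr 1; ring
  rw [e, map_mul, Complex.conj_ofReal]
  push_cast
  ring

lemma Sit.mono (h : Sit D N E V) (n : ℕ) : Rl D E fun x => ((Real.exp (n * x) : ℝ) : ℂ) := by
  induction n with
  | zero =>
    intro κ k κ' k' hκ hk v
    have e1 : κ' = κ.q := TF.ext' fun x => by rw [hκ]; simp
    have e2 : k' = k.q := TF.ext' fun x => by rw [hk]; simp
    rw [e1, e2]
  | succ n ih =>
    intro κ k κ' k' hκ hk v
    set κ1 := κ.m _ (exs ((n : ℝ) / 2)) with hκ1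
    set κ2 := κ1.m _ (exs (1 / 2)) with hκ2
    set k1 := k.m _ (exs (1 / 2)) with hk1
    have e1 : κ' = κ2.q := TF.ext' fun x => by
      rw [hκ, hκ2, q_m, hκ1, q_m, ← mul_assoc, ← Complex.ofReal_mul, ← Real.exp_add]
      congr 4
      push_cast; ring
    have h1 := h.rel κ1 κ2 k k1 (fun x => by
      show ((Real.exp (1 / 2 * x) : ℝ) : ℂ) * κ1.f x = _
      congr 3; ring) (fun x => by
      show ((Real.exp (1 / 2 * x) : ℝ) : ℂ) * k.f x = _
      congr 3; ring) v
    have h2 := ih κ k1 κ1.q k' (fun x => by rw [hκ1, q_m]) (fun x => by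
      rw [hk, hk1, q_m, ← mul_assoc, ← Complex.ofReal_mul, ← Real.exp_add]
      congr 4
      push_cast; ring) v
    rw [e1, h1, h2]

lemma Sit.A_addf (h : Sit D N E V) (k k' k'' : TF) (he : ∀ x, k''.f x = k.f x + k'.f x) (v : H) :
    Af E k'' v = Af E k v + Af E k' v := by
  refine tendsto_nhds_unique (h.tA k'' v) (((h.tA k v).add (h.tA k' v)).congr fun n => ?_)
  have e : (E n).Th k''.B = (E n).Th (k.B + k'.B) := ModData.gd_Th_congr _ fun x => he x
  rw [e, map_add]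
  rfl

lemma Sit.A_smulf (h : Sit D N E V) (c : ℂ) (k k'' : TF) (he : ∀ x, k''.f x = c * k.f x) (v : H) :
    Af E k'' v = c • Af E k v := by
  refine tendsto_nhds_unique (h.tA k'' v) (((h.tA k v).const_smul c).congr fun n => ?_)
  have e : (E n).Th k''.B = (E n).Th (c • k.B) := ModData.gd_Th_congr _ fun x => he x
  rw [e, map_smul]
  rfl

lemma Sit.Rl_add (h : Sit D N E V) {g g' : ℝ → ℂ} (hg : ContDiff ℝ (⊤ : ℕ∞) g)
    (hg' : ContDiff ℝ (⊤ : ℕ∞) g') (h1 : Rl D E g) (h2 : Rl D E g') :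
    Rl D E fun x => g x + g' x := by
  intro κ k κ' k' hκ hk v
  have e1 : D.Th κ'.B = D.Th ((κ.q.m g hg).B + (κ.q.m g' hg').B) :=
    ModData.gd_Th_congr _ fun x => by
      show κ'.f x = g x * κ.q.f x + g' x * κ.q.f x
      rw [hκ, add_mul]
  rw [e1, map_add, h.A_addf (k.q.m g hg) (k.q.m g' hg') k' (fun x => by
    rw [hk, add_mul]; rfl), map_add]
  show D.Th (κ.q.m g hg).B _ + D.Th (κ.q.m g' hg').B _ = _
  rw [h1 κ k (κ.q.m g hg) (k.q.m g hg) (fun _ => rfl) (fun _ => rfl),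
    h2 κ k (κ.q.m g' hg') (k.q.m g' hg') (fun _ => rfl) (fun _ => rfl)]

lemma Sit.Rl_smul (h : Sit D N E V) {g : ℝ → ℂ} (hg : ContDiff ℝ (⊤ : ℕ∞) g) (c : ℂ)
    (h1 : Rl D E g) : Rl D E fun x => c * g x := by
  intro κ k κ' k' hκ hk v
  have e1 : D.Th κ'.B = D.Th (c • (κ.q.m g hg).B) :=
    ModData.gd_Th_congr _ fun x => by
      show κ'.f x = c * (g x * κ.q.f x)
      rw [hκ, mul_assoc]
  rw [e1, map_smul, h.A_smulf c (k.q.m g hg) k' (fun x => by
    rw [hk, mul_assoc]; rfl), map_smul]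
  show c • D.Th (κ.q.m g hg).B _ = _
  rw [h1 κ k (κ.q.m g hg) (k.q.m g hg) (fun _ => rfl) (fun _ => rfl)]

lemma pol_smooth (p : Polynomial ℝ) :
    ContDiff ℝ (⊤ : ℕ∞) fun x : ℝ => ((p.eval (Real.exp x) : ℝ) : ℂ) := by
  have h1 : ContDiff ℝ (⊤ : ℕ∞) fun x : ℝ => p.eval x := by
    simpa [Polynomial.coe_aeval_eq_eval] using p.contDiff_aeval (R := ℝ) (𝕜 := ℝ) (⊤ : ℕ∞)
  exact Complex.ofRealCLM.contDiff.comp (h1.comp Real.contDiff_exp)

lemma Sit.pol (h : Sit D N E V) (p : Polynomial ℝ) :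
    Rl D E fun x => ((p.eval (Real.exp x) : ℝ) : ℂ) := by
  induction p using Polynomial.induction_on' with
  | add p q hp hq =>
    have := h.Rl_add (pol_smooth p) (pol_smooth q) hp hq
    simpa only [Polynomial.eval_add, Complex.ofReal_add] using this
  | monomial n a =>
    have := h.Rl_smul (exs n) (a : ℂ) (h.mono n)
    have e : (fun x : ℝ => (((Polynomial.monomial n a).eval (Real.exp x) : ℝ) : ℂ)) =
        fun x => (a : ℂ) * ((Real.exp (n * x) : ℝ) : ℂ) := by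
      funext x
      rw [Polynomial.eval_monomial, ← Real.exp_nat_mul]
      push_cast
      rfl
    rw [e]
    exact this

/-- approximation by polynomials -/
lemma Sit.appr (h : Sit D N E V) {g : ℝ → ℂ} {φ : ℝ → ℝ} (hg : ∀ x, g x = ((φ (Real.exp x) : ℝ) : ℂ))
    (hφ : ContinuousOn φ (Set.Ioi 0)) : Rl D E g := by
  intro κ k κ' k' hκ hk v
  obtain ⟨R1, hR1⟩ := κ.q.c.isCompact.isBounded.exists_norm_le
  obtain ⟨R2, hR2⟩ := k.q.c.isCompact.isBounded.exists_norm_le
  set R := max R1 R2 with hR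
  set u := Af E k.q v with hu
  set C := ‖κ.q.B‖ * ‖u‖ + ‖κ.q.B‖ * (‖k.q.B‖ * ‖v‖) with hC
  have hε : ∀ ε : ℝ, 0 < ε → ‖D.Th κ'.B u - D.Th κ.q.B (Af E k' v)‖ ≤ ε * C := by
    intro ε hε
    obtain ⟨p, hp⟩ := exists_polynomial_near_of_continuousOn (Real.exp (-R)) (Real.exp R) φ
      (hφ.mono fun y hy => lt_of_lt_of_le (Real.exp_pos _) hy.1) ε hε
    have hb : ∀ (k : TF) (r : ℝ), (∀ x ∈ tsupport k.f, ‖x‖ ≤ r) → r ≤ R → ∀ x,
        ‖(((p.eval (Real.exp x) : ℝ) : ℂ) - g x) * k.f x‖ ≤ ε * ‖k.B‖ := by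
      intro k r hr hrR x
      by_cases hx : x ∈ tsupport k.f
      · have h1 := (hr x hx).trans hrR
        rw [Real.norm_eq_abs, abs_le] at h1
        have h2 := hp (Real.exp x) ⟨Real.exp_le_exp.2 h1.1, Real.exp_le_exp.2 h1.2⟩
        rw [norm_mul, hg, ← Complex.ofReal_sub, Complex.norm_real, Real.norm_eq_abs]
        exact mul_le_mul h2.le (k.B.norm_coe_le_norm x) (norm_nonneg _) hε.le
      · rw [image_eq_zero_of_notMem_tsupport hx, mul_zero, norm_zero]
        positivity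
    set κp := κ.q.m _ (pol_smooth p) with hκp
    set kp := k.q.m _ (pol_smooth p) with hkp
    have e1 := h.pol p κ k κp kp (fun _ => rfl) (fun _ => rfl) v
    set kd : TF := ⟨fun x => kp.f x + -k'.f x, kp.s.add k'.s.neg, kp.c.add k'.c.neg⟩ with hkd
    have e2 : Af E kp v = Af E k' v + Af E kd v := h.A_addf k' kd kp (fun x => by
      show kp.f x = k'.f x + (kp.f x + -k'.f x)
      ring) v
    have b1 : ‖D.Th κ'.B u - D.Th κp.B u‖ ≤ ε * ‖κ.q.B‖ * ‖u‖ := by
      have e3 : D.Th κ'.B u - D.Th κp.B u = D.Th (κ'.B - κp.B) u := by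
        rw [map_sub]; rfl
      rw [e3]
      have h1 : ‖D.Th (κ'.B - κp.B)‖ ≤ ‖κ'.B - κp.B‖ := NonUnitalStarAlgHom.norm_apply_le _ _
      have h2 : ‖κ'.B - κp.B‖ ≤ ε * ‖κ.q.B‖ := by
        refine (BoundedContinuousFunction.norm_le (by positivity)).2 fun x => ?_
        have h3 := hb κ.q R1 hR1 (le_max_left _ _) x
        rw [← norm_neg] at h3
        have e4 : -((((p.eval (Real.exp x) : ℝ) : ℂ) - g x) * κ.q.f x) = (κ'.B - κp.B) x := by
          show _ = κ'.f x - ((p.eval (Real.exp x) : ℝ) : ℂ) * κ.q.f x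
          rw [hκ]; ring
        rwa [e4] at h3
      exact (D.Th (κ'.B - κp.B)).le_of_opNorm_le (h1.trans h2) u
    have b2 : ‖Af E kd v‖ ≤ ε * ‖k.q.B‖ * ‖v‖ := by
      refine h.A_le kd (by positivity) (fun x => ?_) v
      have h3 := hb k.q R2 hR2 (le_max_right _ _) x
      have e4 : (((p.eval (Real.exp x) : ℝ) : ℂ) - g x) * k.q.f x = kd.f x := by
        show _ = ((p.eval (Real.exp x) : ℝ) : ℂ) * k.q.f x + -k'.f x
        rw [hk]; ring
      rwa [e4] at h3
    have b3 : ‖D.Th κ.q.B (Af E kd v)‖ ≤ ‖κ.q.B‖ * (ε * ‖k.q.B‖ * ‖v‖) := by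
      have h1 : ‖D.Th κ.q.B‖ ≤ ‖κ.q.B‖ := NonUnitalStarAlgHom.norm_apply_le _ _
      refine ((D.Th κ.q.B).le_of_opNorm_le h1 _).trans ?_
      gcongr
    have e5 : D.Th κ'.B u - D.Th κ.q.B (Af E k' v) =
        (D.Th κ'.B u - D.Th κp.B u) + D.Th κ.q.B (Af E kd v) := by
      rw [e1, e2, map_add]
      abel
    rw [e5]
    calc _ ≤ ‖D.Th κ'.B u - D.Th κp.B u‖ + ‖D.Th κ.q.B (Af E kd v)‖ := norm_add_le _ _
      _ ≤ ε * ‖κ.q.B‖ * ‖u‖ + ‖κ.q.B‖ * (ε * ‖k.q.B‖ * ‖v‖) := add_le_add b1 b3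
      _ = ε * C := by rw [hC]; ring
  have h0 : ‖D.Th κ'.B u - D.Th κ.q.B (Af E k' v)‖ ≤ 0 * C :=
    ge_of_tendsto' (tendsto_one_div_add_atTop_nhds_zero_nat.mul_const C) fun n =>
      hε _ (by positivity)
  rw [zero_mul] at h0
  exact sub_eq_zero.1 (norm_le_zero_iff.1 h0)

lemma cs_smooth (s : ℝ) : ContDiff ℝ (⊤ : ℕ∞) fun x : ℝ => ((Real.cos (s * x) : ℝ) : ℂ) :=
  Complex.ofRealCLM.contDiff.comp (Real.contDiff_cos.comp (contDiff_const.mul contDiff_id))

lemma sn_smooth (s : ℝ) : ContDiff ℝ (⊤ : ℕ∞) fun x : ℝ => ((Real.sin (s * x) : ℝ) : ℂ) :=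
  Complex.ofRealCLM.contDiff.comp (Real.contDiff_sin.comp (contDiff_const.mul contDiff_id))

lemma exp_cs (s x : ℝ) : expB s x =
    ((Real.cos (s * x) : ℝ) : ℂ) + Complex.I * ((Real.sin (s * x) : ℝ) : ℂ) := by
  rw [P132.expB_apply, mul_comm, Complex.exp_mul_I, Complex.ofReal_cos, Complex.ofReal_sin]
  ring

lemma expB_smooth (s : ℝ) : ContDiff ℝ (⊤ : ℕ∞) fun x : ℝ => expB s x := by
  have e : (fun x : ℝ => expB s x) = fun x => ((Real.cos (s * x) : ℝ) : ℂ) +
      Complex.I * ((Real.sin (s * x) : ℝ) : ℂ) := funext fun x => exp_cs s x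
  rw [e]
  exact (cs_smooth s).add (contDiff_const.mul (sn_smooth s))

lemma Sit.ex (h : Sit D N E V) (s : ℝ) : Rl D E fun x => expB s x := by
  have hl : ContinuousOn (fun y : ℝ => s * Real.log y) (Set.Ioi 0) :=
    continuousOn_const.mul (Real.continuousOn_log.mono fun y hy => ne_of_gt hy)
  have h1 : Rl D E fun x => ((Real.cos (s * x) : ℝ) : ℂ) :=
    h.appr (φ := fun y => Real.cos (s * Real.log y)) (fun x => by rw [Real.log_exp])
      (Real.continuous_cos.comp_continuousOn hl)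
  have h2 : Rl D E fun x => ((Real.sin (s * x) : ℝ) : ℂ) :=
    h.appr (φ := fun y => Real.sin (s * Real.log y)) (fun x => by rw [Real.log_exp])
      (Real.continuous_sin.comp_continuousOn hl)
  have e : (fun x : ℝ => expB s x) = fun x => ((Real.cos (s * x) : ℝ) : ℂ) +
      Complex.I * ((Real.sin (s * x) : ℝ) : ℂ) := funext fun x => exp_cs s x
  rw [e]
  exact h.Rl_add (cs_smooth s) (contDiff_const.mul (sn_smooth s)) h1
    (h.Rl_smul (sn_smooth s) Complex.I h2)

lemma Sit.key (h : Sit D N E V) (κ k : TF) (s : ℝ) (v : H) :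
    D.U s (D.Th κ.q.B (Af E k.q v)) = V s (D.Th κ.q.B (Af E k.q v)) := by
  have e1 := h.ex s κ k (κ.q.m _ (expB_smooth s)) (k.q.m _ (expB_smooth s)) (fun _ => rfl)
    (fun _ => rfl) v
  rw [h.A_exp k.q (k.q.m _ (expB_smooth s)) s (fun _ => rfl), ← h.vth] at e1
  rw [← e1, ModData.U, ← ModData.gd_Th_mul]
  exact congrArg (fun T : H →L[ℂ] H => T (Af E k.q v)) (ModData.gd_Th_congr _ fun x => rfl)

lemma Sit.V_sub (h : Sit D N E V) (s : ℝ) (x y : H) : ‖V s x - V s y‖ = ‖x - y‖ := by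
  refine tendsto_nhds_unique ((h.lim s x).sub (h.lim s y)).norm ?_
  have e : ∀ n, ‖(E n).U s x - (E n).U s y‖ = ‖x - y‖ := fun n => by
    rw [← map_sub, ModData.norm_U]
  simp only [e]
  exact tendsto_const_nhds

lemma Sit.V_zero (h : Sit D N E V) (x : H) : V 0 x = x := by
  refine tendsto_nhds_unique (h.lim 0 x) ?_
  have e : ∀ n, (E n).U 0 x = x := fun n => by
    rw [ModData.U]
    have : (expB 0 : ℝ →ᵇ ℂ) = 1 := by
      ext y
      simp
    rw [this, map_one]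
    rfl
  simp only [e]
  exact tendsto_const_nhds

/-- **Limits of modular groups.** -/
theorem Sit.main (h : Sit D N E V) (s : ℝ) (v : H) : D.U s v = V s v := by
  obtain ⟨χ, hχs, hχc, hχn, hχ1, -⟩ := ModData.gd_cutoff ({0} : Set ℝ) isCompact_singleton
  set X : TF := ⟨χ, hχs, hχc⟩ with hX
  have hX0 : X.q.f 0 = 1 := by
    show conj (χ 0) * χ 0 = 1
    rw [hχ1 0 rfl]; simp
  have hXb : ∀ x, ‖X.q.f x‖ ≤ 1 := by
    intro x
    show ‖conj (χ x) * χ x‖ ≤ 1
    have h1 := (χ.norm_coe_le_norm x).trans hχn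
    rw [norm_mul, RCLike.norm_conj]
    exact mul_le_one₀ h1 (norm_nonneg _) h1
  obtain ⟨G, hGc, hGi, hG⟩ := X.q.four
  have hε : ∀ n : ℕ, (1 / ((n : ℝ) + 1)) ≠ 0 := fun n => by positivity
  have hε0 : Tendsto (fun n : ℕ => 1 / ((n : ℝ) + 1)) atTop (𝓝 0) :=
    tendsto_one_div_add_atTop_nhds_zero_nat
  set k : ℕ → TF := fun n => X.sc _ (hε n) with hk
  have hkq : ∀ n x, (k n).q.f x = X.q.f (1 / ((n : ℝ) + 1) * x) := fun n x => rfl
  -- the limits
  have t1 : Tendsto (fun n => Af E (k n).q v) atTop (𝓝 v) := by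
    have e : ∀ n, Af E (k n).q v = ∫ w, G w • V (2 * Real.pi * (1 / ((n : ℝ) + 1)) * w) v := by
      intro n
      refine h.A_eq (k n).q hGc hGi _ (fun x => ?_) v
      rw [hkq, hG]
      congr 1
      ext w
      congr 3
      push_cast
      ring
    simp only [e]
    have hlim : Tendsto (fun n : ℕ => ∫ w, G w • V (2 * Real.pi * (1 / ((n : ℝ) + 1)) * w) v) atTop
        (𝓝 (∫ w, G w • v)) := by
      refine tendsto_integral_of_dominated_convergence (fun w => ‖G w‖ * ‖v‖) ?_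
        (hGi.norm.mul_const _) ?_ ?_
      · intro n
        exact (hGc.smul ((h.vc v).comp (continuous_const.mul continuous_id))).aestronglyMeasurable
      · intro n
        refine Eventually.of_forall fun w => ?_
        rw [norm_smul, h.nV]
      · refine Eventually.of_forall fun w => ?_
        have h1 : Tendsto (fun n : ℕ => 2 * Real.pi * (1 / ((n : ℝ) + 1)) * w) atTop (𝓝 0) := by
          have := (hε0.const_mul (2 * Real.pi)).mul_const w
          simpa using this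
        have h2 := ((h.vc v).tendsto 0).comp h1
        rw [h.V_zero] at h2
        exact h2.const_smul _
    have hI : (∫ w, G w • v) = v := by
      rw [integral_smul_const]
      have h1 := hG 0
      rw [hX0] at h1
      simp only [mul_zero, Complex.ofReal_zero, Complex.exp_zero, mul_one] at h1
      rw [← h1, one_smul]
    rwa [hI] at hlim
  have t2 : Tendsto (fun n => D.Th (k n).q.B v) atTop (𝓝 v) := by
    have h1 := D.tendsto_Th (l := atTop) v (fun n : ℕ => (k n).q.B) 1 1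
      (Eventually.of_forall fun n x => hXb _) (fun x => ?_)
    · rw [map_one] at h1
      exact h1
    · have h2 : Tendsto (fun n : ℕ => 1 / ((n : ℝ) + 1) * x) atTop (𝓝 0) := by
        have := hε0.mul_const x
        simpa using this
      have h3 := (X.q.s.continuous.tendsto 0).comp h2
      rw [hX0] at h3
      exact h3
  have t3 : Tendsto (fun n => D.Th (k n).q.B (Af E (k n).q v)) atTop (𝓝 v) := by
    have h2 : Tendsto (fun n => D.Th (k n).q.B (Af E (k n).q v - v)) atTop (𝓝 0) := by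
      refine squeeze_zero_norm (a := fun n => ‖Af E (k n).q v - v‖) (fun n => ?_)
        (tendsto_iff_norm_sub_tendsto_zero.1 t1)
      have h1 : ‖D.Th (k n).q.B‖ ≤ ‖(k n).q.B‖ := NonUnitalStarAlgHom.norm_apply_le _ _
      have h3 : ‖(k n).q.B‖ ≤ 1 :=
        (BoundedContinuousFunction.norm_le zero_le_one).2 fun x => hXb _
      have h4 := (D.Th (k n).q.B).le_of_opNorm_le (h1.trans h3) (Af E (k n).q v - v)
      rwa [one_mul] at h4
    have h3 := h2.add t2
    rw [zero_add] at h3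
    refine h3.congr fun n => ?_
    rw [map_sub, sub_add_cancel]
  have hVc : Continuous (V s) := by
    refine (LipschitzWith.of_dist_le_mul (K := 1) fun x y => ?_).continuous
    rw [dist_eq_norm, dist_eq_norm, h.V_sub, NNReal.coe_one, one_mul]
  refine tendsto_nhds_unique (((D.U s).continuous.tendsto v).comp t3) ?_
  refine ((hVc.tendsto v).comp t3).congr fun n => ?_
  exact (h.key (k n) (k n) s v).symm

end Vale.Agent.P352.BW.Cv

end
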