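import Vale.Agent.P352.BW.H728.Cv
import Vale.Agent.P352.BW.LzDefs
import Vale.Agent.P352.BW.H210.Zg
import Vale.Agent.P352.BW.H26.Lcc

/-!
# P352: the conformal group law implies the Bisognano-Wichmann property of the light cone (helper728)
-/

set_option linter.all false

noncomputable section

open MeasureTheory Filter Topology
open scoped ComplexConjugate InnerProductSpace BoundedContinuousFunction

namespace Vale.Agent.P352.BW.H728C

open Vale.Agent.P132 (ModData exists_modData)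
open UniformSpace (Completion)
open GF H246 H496 H755 H15
open Vale.Agent.P352.BW.L (dV)

variable {D : Type*} [NormedAddCommGroup D] [InnerProductSpace ℂ D] {Q : Theory D}
  {A : (V → V) → D → D} {𝒜 : Set V → VonNeumannAlgebra (Completion D)}
  {S : V → ℝ → Completion D →L[ℂ] Completion D}

lemma pair : ∃ a b : V, IsNull a ∧ IsNull b ∧ GF.mdot a b = 1 := by
  refine ⟨![1, 1, 0, 0], ![1 / 2, -(1 / 2), 0, 0], ⟨?_, ?_⟩, ⟨?_, ?_⟩, ?_⟩
  · rw [gf_mdot]
    show (1 : ℝ) * 1 - 1 * 1 - 0 * 0 - 0 * 0 = 0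
    norm_num
  · show (0 : ℝ) < 1
    norm_num
  · rw [gf_mdot]
    show (1 / 2 : ℝ) * (1 / 2) - -(1 / 2) * -(1 / 2) - 0 * 0 - 0 * 0 = 0
    norm_num
  · show (0 : ℝ) < 1 / 2
    norm_num
  · rw [gf_mdot]
    show (1 : ℝ) * (1 / 2) - 1 * -(1 / 2) - 0 * 0 - 0 * 0 = 1
    norm_num

lemma sim_dil' (s : ℝ) (x : V) : sim s GF.one 0 x = s • x := Lc.sim_dil s x

/-- a similitude as a product -/
lemma comp_e (hU : UStmt Q A) {e : ℝ} (he : 0 < e) {L : Ix → V} (hL : IsLor L) (x : V)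
    (w : Completion D) :
    Ue Q e L (e • x) w = Ue Q e GF.one 0 (Ue Q 1 GF.one x (Ue Q 1 L 0 w)) := by
  have e1 : (fun m => sim 1 GF.one 0 (L m)) = L := funext fun m => H26.sim_one0 _
  have e2 : sim 1 GF.one x 0 = x := by rw [HM.sim_tr, zero_add]
  rw [hU.mul 1 GF.one x 1 L 0 w one_pos one_pos isLor_one hL, e1, e2, one_mul,
    hU.mul e GF.one 0 1 L x w he one_pos isLor_one hL, e1, sim_dil', mul_one]

lemma bq_neg_bq (hU : UStmt Q A) {a b : V} (ha : IsNull a) (hb : IsNull b)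
    (hab : GF.mdot a b = 1) (s : ℝ) (w : Completion D) :
    Ue Q 1 (T.bq a b (-s)) 0 (Ue Q 1 (T.bq a b s) 0 w) = w := T.Ue_bq_neg' hU ha hb hab s w

/-- the modular unitaries of the cut light cones, from the group law -/
theorem mod_law (N : LNm Q A 𝒜) (h : Grp0 Q 𝒜 S) (hL : Law Q S) {a b : V} (ha : IsNull a)
    (hb : IsNull b) (hab : GF.mdot a b = 1) {t : ℝ} (ht : 0 < t)
    (E : ModData (𝒜 (Ct a t)) (om Q)) (s : ℝ) (z : Completion D) :
    E.U s z = S a ((Real.exp (2 * Real.pi * s) - 1) / (2 * t)) (dV Q s z) := by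
  have hU : UStmt Q A := ublock N.toRep
  set e := Real.exp (-(2 * Real.pi * s)) with he
  have he0 : 0 < e := Real.exp_pos _
  have hei : e⁻¹ = Real.exp (2 * Real.pi * s) := by rw [he, ← Real.exp_neg, neg_neg]
  have hp : 1 + 2 * ((1 - e) / (2 * t)) * -t = e := by field_simp; ring
  have h1 := hL a b (-t) ((1 - e) / (2 * t)) (T.bq a b (-s))
    (Ue Q 1 (T.bq a b s) 0 (Ue Q 1 GF.one (-(t • b)) z)) ha hb hab (by rw [hp]; exact he0)
    (fun x => by
      rw [hp, T.H732W.sim_bq]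
      have e1 : -(2 * Real.pi * -s) = 2 * Real.pi * s := by ring
      have e2 : Real.exp (2 * Real.pi * -s) - 1 = 2 * ((1 - e) / (2 * t)) * -t := by
        have : 2 * Real.pi * -s = -(2 * Real.pi * s) := by ring
        rw [this, ← he]
        linarith
      rw [e1, e2, ← hei])
  rw [hp] at h1
  have e3 : -(-t • b) = t • b := by rw [neg_smul, neg_neg]
  have e4 : -(-t * e) • b = e • (t • b) := by rw [smul_smul]; congr 1; ring
  rw [e3, e4, comp_e hU he0 (T.H732W.isLor_bq ha hb hab (-s)), bq_neg_bq hU ha hb hab,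
    H26.Ue_tt hU, add_neg_cancel, Ue_one] at h1
  rw [N.modC_eq h ha hb hab ht E s z, h1]
  have e5 : (1 - e) / (2 * t) / e = (Real.exp (2 * Real.pi * s) - 1) / (2 * t) := by
    rw [← hei]
    field_simp
  rw [e5]
  rfl

/-- the dilations are strongly continuous -/
lemma dV_cont (hU : UStmt Q A) (R : Rep Q A) (v : Completion D) : Continuous fun s => dV Q s v := by
  have h0 : Tendsto (fun s => dV Q s v) (𝓝 0) (𝓝 v) := by
    refine H26L.tends_Ue hU R (fun s => Real.exp (-(2 * Real.pi * s))) (fun _ => GF.one)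
      (fun _ => 0) (fun y => (-(2 * Real.pi)) • y) (by simp) rfl rfl
      (fun e => ⟨Real.exp_pos _, isLor_one⟩) (fun n y => ?_) v
    simp only [sim_dil']
    have h1 : HasDerivAt (fun s : ℝ => Real.exp (-(2 * Real.pi * s))) (-(2 * Real.pi)) 0 := by
      have h2 : HasDerivAt (fun s : ℝ => -(2 * Real.pi * s)) (-(2 * Real.pi)) 0 := by
        have := (hasDerivAt_id (0 : ℝ)).const_mul (2 * Real.pi)
        rw [mul_one] at this
        exact this.neg
      have h3 := h2.exp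
      simpa using h3
    exact h1.mul_const (y n)
  refine continuous_iff_continuousAt.2 fun s0 => ?_
  rw [ContinuousAt, tendsto_iff_norm_sub_tendsto_zero]
  have h1 : Tendsto (fun s : ℝ => s - s0) (𝓝 s0) (𝓝 0) := by
    have : Continuous fun s : ℝ => s - s0 := by fun_prop
    simpa using this.tendsto s0
  have h2 := tendsto_iff_norm_sub_tendsto_zero.1 (h0.comp h1)
  refine h2.congr fun s => ?_
  obtain ⟨W, hW⟩ := H210.dV_lin hU s0
  have e1 : dV Q s v = dV Q s0 (dV Q (s - s0) v) := by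
    rw [H210.dV_add hU]; congr 1; ring
  show ‖dV Q (s - s0) v - v‖ = ‖dV Q s v - dV Q s0 v‖
  rw [e1, ← hW, ← hW, ← map_sub, W.norm_map]

/-- **The group law implies the Bisognano-Wichmann property of the light cone.** -/
theorem lc_of_law (N : LNm Q A 𝒜) (h : Grp0 Q 𝒜 S) (hs : SepF Q 𝒜) (hL : Law Q S) :
    LC Q 𝒜 := by
  have hU : UStmt Q A := ublock N.toRep
  obtain ⟨a, b, ha, hb, hab⟩ := pair
  obtain ⟨D0⟩ : Nonempty (ModData (𝒜 Fc) (om Q)) :=
    exists_modData _ _ (H732G.norm_om Q) (N.cyc Lc.isOpen_fc H210.fc_ne) hs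
  have hn : ∀ n : ℕ, (0 : ℝ) < (n : ℝ) + 1 := fun n => by positivity
  have hE : ∀ n : ℕ, Nonempty (ModData (𝒜 (Ct a ((n : ℝ) + 1))) (om Q)) := fun n =>
    N.modC ha hb hab (hn n)
  let E : ∀ n : ℕ, ModData (𝒜 (Ct a ((n : ℝ) + 1))) (om Q) := fun n => (hE n).some
  have hc : ∀ t, ∀ X ∈ 𝒜 Fc, ∃ Y ∈ 𝒜 Fc, ∀ z, Y (dV Q t z) = dV Q t (X z) := fun t =>
    (N.dilF (Real.exp_pos _)).1
  have sit : Cv.Sit D0 (fun n : ℕ => 𝒜 (Ct a ((n : ℝ) + 1))) E (dV Q) := by
    refine ⟨fun n => N.ct_fc a _, fun s v => ?_, dV_cont hU N.toRep, fun F s z =>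
      (H210.dV_nat hU D0 hc s).1 F z, fun s z => (H210.dV_nat hU D0 hc s).2 z⟩
    have e : ∀ n, (E n).U s v = S a ((Real.exp (2 * Real.pi * s) - 1) / (2 * ((n : ℝ) + 1)))
        (dV Q s v) := fun n => mod_law N h hL ha hb hab (hn n) (E n) s v
    simp only [e]
    have h1 : Tendsto (fun n : ℕ => (Real.exp (2 * Real.pi * s) - 1) / (2 * ((n : ℝ) + 1))) atTop
        (𝓝 0) := by
      have h2 := (tendsto_one_div_add_atTop_nhds_zero_nat (𝕜 := ℝ)).const_mul
        ((Real.exp (2 * Real.pi * s) - 1) / 2)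
      rw [mul_zero] at h2
      refine h2.congr fun n => ?_
      have := (hn n).ne'
      field_simp
    have h3 := ((h.cont a (dV Q s v) ha).tendsto 0).comp h1
    rw [h.zero a ha] at h3
    exact h3
  refine ⟨fun x => D0.J x, ?_⟩
  have h2 := isMod D0
  have e : (fun (t : ℝ) (z : Completion D) => Ue Q (Real.exp (-(2 * Real.pi * t))) GF.one 0 z) =
      fun t z => D0.U t z := by
    funext t z
    exact (sit.main t z).symm
  rw [e]
  exact h2

end Vale.Agent.P352.BW.H728C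

end
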